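import Vale.Agent.P280.H490.Rev
import Vale.Agent.P280.N2.Defs

/-! P280, stage 2: a class with two members at one end of a curve. -/

open DirectSum Vale.Agent.P280.T Vale.Agent.P280.H127

namespace Vale.Agent.P280.H72

open Vale.Agent.P280.N Vale.Agent.P280.H490 Vale.Agent.P280.N2

variable {r : ℕ} {R : Type} [CommRing R] [IsDomain R] [Algebra ℂ R]
  {𝒜 : ℕ × (Fin r → ℤ) → Submodule ℂ R} [GradedAlgebra 𝒜]

/-- `lam` and `lam + a` at the end `y'` (the second is the weight of a global field `w`): then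
`lam` is a weight of `y`. -/
theorem pi_keep (H : Hyp 𝒜) {y y' : FP 𝒜} {a : Fin r → ℤ} {n : ℕ}
    {φ : R →ₐ[ℂ] Polynomial ℂ} (hφ : Curve y y' a n φ) {lam : Fin r → ℤ} {w : VF R}
    (hl : ∀ k : ℤ, lam ≠ k • a) (hpi : y'.Pi lam) (h2 : ∀ k : ℕ, 2 ≤ k → ¬ y.Pi (lam + k • a))
    (hw : Glob w) (hwv : HV 𝒜 (lam + a) w) (hw1 : ¬ ValV y'.q w 0) : y.Pi lam := by
  by_contra hy
  obtain ⟨t, ht, htw, htn⟩ := hpi
  obtain ⟨δ, hδ, hdeg, hδt⟩ := H490.exists_lift H hφ ht htw
  obtain ⟨ω, hω, hωdeg, hωy, hωy', -⟩ := along_field hφ hw hwv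
  have hdeg' : ∀ d m, ∀ h ∈ 𝒜 (d, m), δ h ≠ 0 → ∃ i : ℕ, m = d • y.ν + i • a + lam ∧
      ∃ c : ℂ, δ h = Polynomial.C c * Polynomial.X ^ i := fun d m h hh hne => by
    obtain ⟨i, -, hi, hc⟩ := hdeg d m h hh hne
    exact ⟨i, hi, hc⟩
  have hωdeg' : ∀ d m, ∀ h ∈ 𝒜 (d, m), ω h ≠ 0 → ∃ i : ℕ, m = d • y.ν + i • a + (lam + a) ∧
      ∃ c : ℂ, ω h = Polynomial.C c * Polynomial.X ^ i := fun d m h hh hne => by
    obtain ⟨i, -, hi, hc⟩ := hωdeg d m h hh hne
    exact ⟨i, hi, hc⟩
  have hla : ∀ k : ℤ, lam + a ≠ k • a := fun k hk => hl (k - 1) (by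
    rw [sub_smul, one_smul, ← hk]
    abel)
  have hδne : ∃ h, δ h ≠ 0 := by
    obtain ⟨d, m, h, hh, h1⟩ := htn 0
    refine ⟨h, fun h0 => h1 ?_⟩
    rw [← hδt d m h hh, h0]
    simp
  obtain ⟨dw, mw, hw', hhw, hwne⟩ : ∃ d m, ∃ h ∈ 𝒜 (d, m), (ω h).coeff (d * n) ≠ 0 := by
    by_contra hcon
    push Not at hcon
    exact hw1 (hωy'.2 hcon)
  have hωne : ∃ h, ω h ≠ 0 := ⟨hw', fun h0 => hwne (by rw [h0, Polynomial.coeff_zero])⟩
  -- the order of `δ` is one
  obtain ⟨k, -, hkmin, hkne, hkPi⟩ := along_pi (a := a) (μ := lam) (j := 0) hφ.ev hδ hdeg' hl hδne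
    (fun h i hi => absurd hi (Nat.not_lt_zero i))
  have hk1 : k = 1 := by
    rcases Nat.lt_or_ge k 2 with h | h
    · rcases Nat.eq_zero_or_pos k with h0 | h0
      · subst h0
        exfalso
        apply hy
        rw [Nat.cast_zero, zero_smul, add_zero] at hkPi
        exact hkPi
      · omega
    · exfalso
      rw [natCast_zsmul] at hkPi
      exact h2 k h hkPi
  subst hk1
  -- the order of `ω` is zero
  obtain ⟨k, -, hkmin', hkne', hkPi'⟩ := along_pi (a := a) (μ := lam + a) (j := 0) hφ.ev hω hωdeg'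
    hla hωne (fun h i hi => absurd hi (Nat.not_lt_zero i))
  have hk0 : k = 0 := by
    by_contra h
    apply h2 (k + 1) (by omega)
    have h3 : lam + (k + 1) • a = lam + a + (k : ℤ) • a := by
      rw [natCast_zsmul, add_smul, one_smul]
      abel
    rw [h3]
    exact hkPi'
  subst hk0
  -- the two tangent vectors of weight `lam + a`
  have ht1 : IsTangent y.q ((Polynomial.lcoeff ℂ 1).comp δ) := along_tangent hφ.ev hδ hkmin
  have hw1' : HasWeight 𝒜 y.ν (lam + a) ((Polynomial.lcoeff ℂ 1).comp δ) := by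
    have := along_weight (y := y) (a := a) (μ := lam) hdeg' 1
    rwa [Nat.cast_one, one_smul] at this
  have ht2 : IsTangent y.q ((Polynomial.lcoeff ℂ 0).comp ω) := along_tangent hφ.ev hω hkmin'
  have hw2' : HasWeight 𝒜 y.ν (lam + a) ((Polynomial.lcoeff ℂ 0).comp ω) := by
    have := along_weight (y := y) (a := a) (μ := lam + a) hωdeg' 0
    rwa [Nat.cast_zero, zero_smul, add_zero] at this
  have hPi : y.Pi (lam + a) := by
    rwa [Nat.cast_one, one_smul] at hkPi
  obtain ⟨c, c', hcc, hlin⟩ := H.mult y.q y.ν (lam + a) y.nv y.fix hPi _ _ ht1 hw1' ht2 hw2'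
  simp only [LinearMap.comp_apply, Polynomial.lcoeff_apply] at hlin
  have hc' : c' ≠ 0 := by
    rintro rfl
    have hc0 : c ≠ 0 := by
      rcases hcc with h | h
      · exact h
      · exact absurd rfl h
    obtain ⟨x, hx⟩ := hkne
    have h3 := hlin x
    rw [zero_mul, add_zero] at h3
    exact (mul_ne_zero hc0 hx) h3
  have hc : c ≠ 0 := by
    rintro rfl
    obtain ⟨x, hx⟩ := hkne'
    have h3 := hlin x
    rw [zero_mul, zero_add] at h3
    exact (mul_ne_zero hc' hx) h3
  -- subtract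
  set b : ℂ := c' / c with hb
  have hb0 : b ≠ 0 := div_ne_zero hc' hc
  have hlin' : ∀ x, (δ x).coeff 1 + b * (ω x).coeff 0 = 0 := by
    intro x
    have h3 := hlin x
    rw [hb]
    field_simp
    linear_combination h3
  let δ' : R →ₗ[ℂ] Polynomial ℂ :=
    δ + b • ((LinearMap.mulLeft ℂ (Polynomial.X : Polynomial ℂ)).comp ω)
  have hδ'a : ∀ x, δ' x = δ x + b • (Polynomial.X * ω x) := fun x => rfl
  have hzero : ∀ x, δ' x = 0 := by
    by_contra hcon
    push Not at hcon
    obtain ⟨k, hk, -, -, hk2⟩ := along_pi (y := y) (a := a) (μ := lam) (φ := φ) (j := 2)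
      (δ := δ') hφ.ev
      (by
        intro x z
        rw [hδ'a, hδ'a, hδ'a, hδ, hω]
        simp only [Polynomial.smul_eq_C_mul]
        ring)
      (by
        intro d m h hh hne
        by_cases hδh : δ h = 0
        · by_cases hωh : ω h = 0
          · exfalso
            apply hne
            rw [hδ'a, hδh, hωh, mul_zero, smul_zero, add_zero]
          · obtain ⟨i, hi, e, he⟩ := hωdeg' d m h hh hωh
            refine ⟨i + 1, ?_, b * e, ?_⟩
            · rw [hi, add_smul, one_smul]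
              abel
            · rw [hδ'a, hδh, he, zero_add, Polynomial.smul_eq_C_mul, Polynomial.C_mul]
              ring
        · obtain ⟨i, hi, e, he⟩ := hdeg' d m h hh hδh
          by_cases hωh : ω h = 0
          · refine ⟨i, hi, e, ?_⟩
            rw [hδ'a, hωh, mul_zero, smul_zero, add_zero, he]
          · obtain ⟨i', hi', e', he'⟩ := hωdeg' d m h hh hωh
            have hii : i = i' + 1 := by
              have h3 : i • a = (i' + 1) • a := by
                have h4 : d • y.ν + i • a + lam = d • y.ν + i' • a + (lam + a) := by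
                  rw [← hi, ← hi']
                rw [add_smul, one_smul]
                have h7 : i • a = d • y.ν + i • a + lam - d • y.ν - lam := by abel
                rw [h7, h4]
                abel
              exact H490.nsmul_inj (H490.ne_zero_of_curve H hφ) h3
            refine ⟨i, hi, e + b * e', ?_⟩
            rw [hδ'a, he, he', hii, Polynomial.smul_eq_C_mul, Polynomial.C_add, Polynomial.C_mul]
            ring)
      hl hcon
      (by
        intro h i hi
        rw [hδ'a, Polynomial.coeff_add, Polynomial.coeff_smul, smul_eq_mul]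
        rcases i with _ | i
        · rw [Polynomial.coeff_X_mul_zero, mul_zero, add_zero]
          exact hkmin h 0 one_pos
        · obtain rfl : i = 0 := by omega
          rw [Polynomial.coeff_X_mul]
          exact hlin' h)
    rw [natCast_zsmul] at hk2
    exact h2 k hk hk2
  -- the degree at the other end
  have h3 := congrArg (fun p => Polynomial.coeff p (dw * n + 1)) (hzero hw')
  simp only [hδ'a, Polynomial.coeff_add, Polynomial.coeff_smul, smul_eq_mul,
    Polynomial.coeff_zero] at h3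
  rw [Polynomial.coeff_X_mul] at h3
  have h4 : (δ hw').coeff (dw * n + 1) = 0 := by
    by_cases hδh : δ hw' = 0
    · rw [hδh, Polynomial.coeff_zero]
    · obtain ⟨i, hi, -, e, he⟩ := hdeg dw mw hw' hhw hδh
      rw [he, Polynomial.coeff_C_mul_X_pow, if_neg (by omega)]
  rw [h4, zero_add] at h3
  exact (mul_ne_zero hb0 hwne) h3

omit [GradedAlgebra 𝒜] in
/-- By multiplicity one a field of weight `χ`, not zero at `y`, realises `χ`. -/
theorem real_of_ne (H : Hyp 𝒜) {y : FP 𝒜} {χ : Fin r → ℤ} (hχ : y.Pi χ) {D : VF R}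
    (hD : Glob D) (hDv : HV 𝒜 χ D) (h0 : ¬ ValV y.q D 0) [GradedAlgebra 𝒜] : Real 𝒜 y χ := by
  intro t ht htw
  obtain ⟨E, rfl, hE⟩ := hD.exists_hder hDv
  have hval : ValV y.q (toVF E) (y.q.toLinearMap.comp (E : R →ₗ[ℂ] R)) := by
    intro h
    rw [toVF_iK]
    exact Val.iK (E h)
  set s : R →ₗ[ℂ] ℂ := y.q.toLinearMap.comp (E : R →ₗ[ℂ] R) with hs
  have hs0 : s ≠ 0 := fun h => h0 (h ▸ hval)
  have hst : IsTangent y.q s := by
    intro x z
    simp only [hs, LinearMap.comp_apply, AlgHom.toLinearMap_apply, Derivation.coeFn_coe,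
      Derivation.leibniz, smul_eq_mul, map_add, map_mul]
  have hsw : HasWeight 𝒜 y.ν χ s := by
    intro d m h hh hne
    have h1 := y.fix _ _ _ (hE d m h hh) hne
    rw [← h1]
    abel
  obtain ⟨c, c', hcc, hlin⟩ := H.mult y.q y.ν χ y.nv y.fix hχ t s ht htw hst hsw
  have hc : c ≠ 0 := by
    rintro rfl
    have hc' : c' ≠ 0 := by
      rcases hcc with h | h
      · exact absurd rfl h
      · exact h
    apply hs0
    refine LinearMap.ext fun x => ?_
    have h3 := hlin x
    rw [zero_mul, zero_add] at h3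
    exact (mul_eq_zero.1 h3).resolve_left hc'
  refine ⟨toVF ((-(c' / c)) • E), ?_, ?_, ?_⟩
  · intro h
    exact ⟨_, toVF_iK _ h⟩
  · intro d m h hh
    rw [toVF_iK]
    have h1 : ((-(c' / c)) • E) h ∈ 𝒜 (d, m - χ) := Submodule.smul_mem _ _ (hE d m h hh)
    refine ⟨d, 0, m - χ, 0, _, h1, 1, SetLike.GradedOne.one_mem, one_ne_zero, ?_, by simp, by simp⟩
    rw [iK, map_one, one_mul]
  · intro h
    rw [toVF_iK]
    have h1 : t h = y.q (((-(c' / c)) • E) h) := by
      have h3 := hlin h
      have h4 : s h = y.q (E h) := rfl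
      rw [h4] at h3
      rw [Derivation.smul_apply, map_smul, smul_eq_mul]
      field_simp
      linear_combination h3
    rw [h1]
    exact Val.iK _

end Vale.Agent.P280.H72
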