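import Vale.Agent.P280.N2.M1
import Vale.Agent.P280.N2.U
import Vale.Agent.P280.N2.TwoUp
import Vale.Agent.P280.H79.Move
import Vale.Agent.P280.H72.Keep

/-! P280, stage 2, (e): the induction (second source), over (a)-(d) as hypotheses. -/

open DirectSum Vale.Agent.P280.T Vale.Agent.P280.H127

namespace Vale.Agent.P280.H72

open Vale.Agent.P280.N Vale.Agent.P280.N2 Vale.Agent.P280.N.H989

variable {r : ℕ} {R : Type} [CommRing R] [IsDomain R] [Algebra ℂ R]
  {𝒜 : ℕ × (Fin r → ℤ) → Submodule ℂ R} [GradedAlgebra 𝒜]
variable {N : ℤ} {n : ℕ} {f : Fin (n + 1) → Fin r → ℤ}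
  {β : Fin (n + 1) → Fin (n + 1) → ((Fin r → ℤ) →+ ℤ)} {E F : Fin (n + 1) → Fin (n + 1) → VF R}

omit [IsDomain R] [GradedAlgebra 𝒜] in
theorem wt_ne' (H : Hyp 𝒜) {χ : Fin r → ℤ} (h : Wt 𝒜 χ) : χ ≠ 0 := by
  rintro rfl
  obtain ⟨y, hy⟩ := h
  exact H.iso y.q y.ν y.nv y.fix hy

theorem h01 (hn : 2 ≤ n) : (0 : Fin (n + 1)) ≠ 1 := by
  intro h
  have := congrArg Fin.val h
  rw [Fin.val_one', Nat.mod_eq_of_lt (by omega)] at this
  simp at this

theorem h0L (hn : 2 ≤ n) : (0 : Fin (n + 1)) ≠ Fin.last n := by
  intro h
  have := congrArg Fin.val h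
  simp at this
  omega

theorem h1L (hn : 2 ≤ n) : (1 : Fin (n + 1)) ≠ Fin.last n := by
  intro h
  have := congrArg Fin.val h
  rw [Fin.val_one', Nat.mod_eq_of_lt (by omega)] at this
  simp at this
  omega

/-- Closure along the root `f i - f j`. -/
theorem clos (H : Hyp 𝒜) (hA : AC 𝒜 N n f β E F) {i j : Fin (n + 1)} (hij : i ≠ j) {y : FP 𝒜}
    (hna : ¬ y.Pi (-(f i - f j))) {χ χ' : Fin r → ℤ} (hχ : y.Pi χ) (hb : β i j χ < 0)
    (he : χ + (f i - f j) = χ') : y.Pi χ' := by
  rw [← he]
  exact H155.nef_string0 H hA.N0 (H155.toRoot0 (hA.root i j hij)) (hA.root i j hij).int y hna hχ hb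

/-- **(e)** The induction on the height of the fixed point, over (a)-(d). -/
theorem real_AC_of (H : Hyp 𝒜) (hA : AC 𝒜 N n f β E F) (hv : NoVec 𝒜 n f)
    {c : (Fin r → ℤ) →+ ℤ} (hc : Ch2 𝒜 n f c)
    (two : ∀ p : FP 𝒜, Pos c p → p.Pi (-f (Fin.last n)) → Real 𝒜 p (-f (Fin.last n)))
    (fieldB : ∀ p q : FP 𝒜, Pos c p → q.Pi (-f 1) → (∀ ψ, q.Pi ψ → ψ ≠ -f 1 → 0 < c ψ) →
      ¬ q.Pi (f 1 - f (Fin.last n)) → ∀ (k : ℕ) (φ : R →ₐ[ℂ] Polynomial ℂ),
      Curve q p (-f 1) k φ → ∃ D : VF R, Glob D ∧ HV 𝒜 (-f (Fin.last n)) D ∧ NZ φ D)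
    (fieldC : ∀ p q : FP 𝒜, Pos c p → q.Pi (-f (Fin.last n)) → p.Pi (f 0 - f (Fin.last n)) →
      ¬ p.Pi (f 1) → ¬ p.Pi (f 1 - f (Fin.last n)) → ∀ (k : ℕ) (φ : R →ₐ[ℂ] Polynomial ℂ),
      Curve q p (-f 0) k φ → ∃ D : VF R, Glob D ∧ HV 𝒜 (-f (Fin.last n)) D ∧ NZ φ D)
    (fieldD : n = 2 → ∀ p z : FP 𝒜, Pos c p → z.Pi (-f 1) →
      (∀ ψ, z.Pi ψ → ψ ≠ -f 1 → 0 < c ψ) → z.Pi (-f (Fin.last n)) → p.Pi (-f (Fin.last n)) →
      ∀ (k : ℕ) (φ : R →ₐ[ℂ] Polynomial ℂ), Curve z p (-f 1) k φ → Real 𝒜 z (-f (Fin.last n))) :
    ∀ z : FP 𝒜, z.Pi (-f (Fin.last n)) → Real 𝒜 z (-f (Fin.last n)) := by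
  have hN := hA.N0
  have hn := hA.n2
  set L : Fin (n + 1) := Fin.last n with hL
  set lam : Fin r → ℤ := -f L with hlam
  have e01 := h01 hn
  have e0L : (0 : Fin (n + 1)) ≠ L := h0L hn
  have e1L : (1 : Fin (n + 1)) ≠ L := h1L hn
  have c1 : 0 < c (f 1) := hc.pos
  have c0 : c (f 1) < c (f 0) := hc.ord 0 1 (by
    rw [Fin.lt_def, Fin.val_one', Nat.mod_eq_of_lt (by omega)]
    simp)
  have cL : c (f L) < 0 := hc.neg L (by simpa [hL] using hn)
  have clam : 0 < c lam := by rw [hlam, map_neg]; omega
  have w0 : f 0 ≠ 0 := wt_ne' H (hA.wt 0)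
  have w1 : f 1 ≠ 0 := wt_ne' H (hA.wt 1)
  have wL : f L ≠ 0 := wt_ne' H (hA.wt L)
  have cneg0 : c (-f 0) < 0 := by rw [map_neg]; omega
  have cneg1 : c (-f 1) < 0 := by rw [map_neg]; omega
  -- `f 1 - f 0` is neither `-f 0` nor `-f 1`
  have x10 : ¬ (-(f 0 - f 1) = -f 0 ∨ -(f 0 - f 1) = -f 1) := by
    rintro (h | h)
    · apply w1
      have h1 : f 1 = -(f 0 - f 1) + f 0 := by abel
      rw [h1, h]
      abel
    · have h1 := congrArg (β 0 1) h
      rw [map_neg, map_sub, map_neg, hA.be 0 1 0 e01, hA.be 0 1 1 e01, if_pos rfl, if_neg e01,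
        if_neg e01.symm, if_pos rfl] at h1
      omega
  obtain ⟨K, hK⟩ := H79.nu_bound H c
  have key : ∀ (m : ℕ) (z : FP 𝒜), c z.ν - K < m → z.Pi lam → Real 𝒜 z lam := by
    intro m
    induction m with
    | zero =>
      intro z hz
      have := hK z
      push_cast at hz
      omega
    | succ m ih =>
      intro z hz hzl
      -- lower points
      have down : ∀ {z' : FP 𝒜} {a : Fin r → ℤ} {k : ℕ} {φ : R →ₐ[ℂ] Polynomial ℂ},
          Curve z z' a k φ → c a < 0 → z'.Pi lam → ∃ D : VF R, Glob D ∧ HV 𝒜 lam D ∧
            ¬ ValV z'.q D 0 := by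
        intro z' a k φ hφ hca hl
        have hreal := ih z' (by
          rw [hφ.nu, map_add, map_nsmul, nsmul_eq_mul]
          have h2 : (1 : ℤ) ≤ k := by exact_mod_cast hφ.n1
          push_cast at hz
          nlinarith) hl
        have hl' := hl
        obtain ⟨t, ht, htw, htn⟩ := hl'
        obtain ⟨D, hD, hDv, hDt⟩ := hreal t ht htw
        refine ⟨D, hD, hDv, fun h0 => ?_⟩
        obtain ⟨d, m', h, hh, h1⟩ := htn 0
        apply h1
        rw [hDt.unique h0, LinearMap.zero_apply, zero_mul, zero_mul]
      have mul : ∀ {a : Fin r → ℤ}, z.Pi a → c a < 0 → ∀ k : ℤ, lam ≠ k • a := by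
        intro a ha hca
        refine ne_smul H hzl ha ?_
        rintro h
        rw [h] at clam
        omega
      by_cases hother : ∃ a, z.Pi a ∧ c a < 0 ∧ a ≠ -f 0 ∧ a ≠ -f 1
      · -- other negative weights
        obtain ⟨a, ha, hca, ha0, ha1⟩ := hother
        obtain ⟨z', k, φ, hφ⟩ := exists_curve H z ha
        have hsub : ∀ j : ℕ, z'.Pi (lam - j • a) → j = 0 := by
          intro j hj
          rcases lam_sub H hA hv hc ⟨z, ha⟩ hca ⟨z', hj⟩ with h | ⟨-, h | h⟩
          · exact h
          · exact absurd h ha0
          · exact absurd h ha1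
        obtain ⟨j, hj⟩ := H79.pi_other H hφ (mul ha hca) hzl
        have hj0 := hsub j hj
        subst hj0
        rw [zero_smul, sub_zero] at hj
        obtain ⟨D, hD, hDv, hD0⟩ := down hφ hca hj
        exact real_of_ne H hzl hD hDv
          (N2.curve_u H hφ hD hDv (mul ha hca) hzl hsub (nz_of_val hφ hD hDv (Or.inr hD0)))
      push Not at hother
      have hneg : ∀ a, z.Pi a → c a < 0 → a = -f 0 ∨ a = -f 1 := by
        intro a ha hca
        by_cases h : a = -f 0
        · exact Or.inl h
        · exact Or.inr (hother a ha hca h)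
      by_cases h1 : z.Pi (-f 1)
      swap
      · -- no negative weight
        have h0 : ¬ z.Pi (-f 0) := by
          intro h0
          apply h1
          refine clos H hA e01 (fun h => x10 (hneg _ h (by
            rw [map_neg, map_sub]; omega))) h0 ?_ (by abel)
          rw [map_neg, hA.be 0 1 0 e01, if_pos rfl, if_neg e01]
          omega
        refine two z (fun χ hχ => ?_) hzl
        by_contra hcon
        rcases hneg χ hχ (not_le.1 hcon) with h | h
        · exact h0 (h ▸ hχ)
        · exact h1 (h ▸ hχ)
      have hf1 : ¬ z.Pi (f 1) := by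
        intro h
        exact H170.not_pi_neg H h h1
      by_cases h0 : z.Pi (-f 0)
      · -- both
        obtain ⟨z', k, φ, hφ⟩ := exists_curve H z h0
        obtain ⟨φ', hφ', -⟩ := H490.exists_rev H hφ
        rw [neg_neg] at hφ'
        have hl := mul h0 cneg0
        by_cases hz' : z'.Pi lam
        · obtain ⟨D, hD, hDv, hD0⟩ := down hφ cneg0 hz'
          refine real_of_ne H hzl hD hDv fun hval => ?_
          obtain ⟨j, hj, hj1⟩ := curve_ta H hφ hD hDv hl hval hD0
          rcases Nat.lt_or_ge n 3 with h3 | h3
          · have hn2 : n = 2 := by omega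
            subst hn2
            rcases lam_add2 hA e01 e0L e1L ⟨z, hj1⟩ with h | ⟨-, h⟩ | ⟨-, h⟩
            · omega
            · exact hf1 (h ▸ hj1)
            · have h4 : z.Pi (-(f 0 - f 1)) := by
                rw [neg_sub, ← h]
                exact hj1
              exact x10 (hneg _ h4 (by rw [map_neg, map_sub]; omega))
          · have := lam_add hA hv h3 e0L ⟨z, hj1⟩
            omega
        · -- `lam` is not a weight of `z'`
          have hsub : ∀ j : ℕ, z'.Pi (lam - j • (-f 0)) → j = 1 := by
            intro j hj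
            rcases lam_sub H hA hv hc ⟨z, h0⟩ cneg0 ⟨z', hj⟩ with h | ⟨h, -⟩
            · subst h
              rw [zero_smul, sub_zero] at hj
              exact absurd hj hz'
            · exact h
          obtain ⟨j, hj⟩ := H79.pi_other H hφ hl hzl
          have hj1 := hsub j hj
          subst hj1
          have h0L' : z'.Pi (f 0 - f L) := by
            have h2 : lam - 1 • (-f 0) = f 0 - f L := by
              rw [one_smul, hlam]
              abel
            rwa [h2] at hj
          have hn0L : ¬ z.Pi (f 0 - f L) := by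
            intro h2
            refine two_up H hφ hl hzl (w := E 0 L) (hA.root 0 L e0L).globE ?_
              ((hA.root 0 L e0L).atE z h2) hsub
            have h3 : lam - -f 0 = f 0 - f L := by
              rw [hlam]
              abel
            rw [h3]
            exact (hA.root 0 L e0L).hvE
          have hn1L : ¬ z.Pi (f 1 - f L) := by
            intro h2
            apply hn0L
            refine clos H hA e01 (fun h => x10 (hneg _ h (by
              rw [map_neg, map_sub]; omega))) h2 ?_ (by abel)
            rw [map_sub, hA.be 0 1 1 e01, hA.be 0 1 L e01, if_neg e01.symm, if_pos rfl,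
              if_neg e0L.symm, if_neg e1L.symm]
            omega
          have mulz' : ∀ {χ : Fin r → ℤ}, z'.Pi χ → χ ≠ f 0 → ∀ k : ℤ, χ ≠ k • f 0 := by
            intro χ hχ hne
            refine ne_smul H hχ ?_ hne
            have := hφ.ya'
            rwa [neg_neg] at this
          have hneg' : ∀ χ, z'.Pi χ → c χ < 0 → χ = -f 1 := by
            intro χ hχ hcχ
            have hne : χ ≠ f 0 := by
              rintro rfl
              omega
            obtain ⟨j, hj⟩ := H79.pi_other H hφ' (mulz' hχ hne) hχ
            have hcj : c (χ - j • f 0) < 0 := by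
              rw [map_sub, map_nsmul, nsmul_eq_mul]
              have : (0 : ℤ) ≤ (j : ℤ) * c (f 0) := mul_nonneg (by positivity) (by omega)
              omega
            rcases hneg _ hj hcj with h | h
            · exfalso
              refine mulz' hχ hne ((j : ℤ) - 1) ?_
              have h2 : χ = (χ - j • f 0) + j • f 0 := by abel
              rw [h2, h, sub_smul, one_smul, natCast_zsmul]
              abel
            · have h2 : χ = -f 1 + j • f 0 := by
                have h3 : χ = (χ - j • f 0) + j • f 0 := by abel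
                rw [h3, h]
              have h3 := ac_le2 hA ⟨z', hχ⟩ e01
              rw [h2, map_add, map_neg, map_nsmul, nsmul_eq_mul, hA.be 0 1 0 e01,
                hA.be 0 1 1 e01, if_pos rfl, if_neg e01, if_neg e01.symm, if_pos rfl] at h3
              have h4 : j ≤ 1 := by
                by_contra h4
                have h5 : (2 : ℤ) ≤ j := by
                  have : 2 ≤ j := by omega
                  exact_mod_cast this
                nlinarith
              rcases Nat.eq_zero_or_pos j with h5 | h5
              · subst h5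
                rw [h2, zero_smul, add_zero]
              · exfalso
                have h6 : j = 1 := by omega
                subst h6
                rw [h2, one_smul, map_add, map_neg] at hcχ
                omega
          have hn1 : ¬ z'.Pi (-f 1) := by
            intro h2
            apply hz'
            refine clos H hA e1L (fun h => ?_) h2 ?_ (by rw [hlam]; abel)
            · have h3 := hneg' _ h (by rw [map_neg, map_sub]; omega)
              apply wL
              have h4 : f L = -(f 1 - f L) + f 1 := by abel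
              rw [h4, h3]
              abel
            · rw [map_neg, hA.be 1 L 1 e1L, if_pos rfl, if_neg e1L]
              omega
          have hpos : Pos c z' := by
            intro χ hχ
            by_contra hcon
            exact hn1 (hneg' χ hχ (not_le.1 hcon) ▸ hχ)
          have hnf1 : ¬ z'.Pi (f 1) := by
            intro h2
            have hne : f 1 ≠ f 0 := by
              intro h3
              rw [h3] at c0
              omega
            obtain ⟨j, hj⟩ := H79.pi_other H hφ' (mulz' h2 hne) h2
            rcases Nat.eq_zero_or_pos j with h5 | h5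
            · subst h5
              rw [zero_smul, sub_zero] at hj
              exact hf1 hj
            · by_cases h6 : j = 1
              · subst h6
                rw [one_smul] at hj
                have h7 : z.Pi (-(f 0 - f 1)) := by rwa [neg_sub]
                exact x10 (hneg _ h7 (by rw [map_neg, map_sub]; omega))
              · have h3 := ac_le2 hA ⟨z, hj⟩ e01.symm
                rw [map_sub, map_nsmul, nsmul_eq_mul, hA.be 1 0 0 e01.symm,
                  hA.be 1 0 1 e01.symm, if_pos rfl, if_neg e01, if_neg e01.symm, if_pos rfl] at h3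
                have h8 : (2 : ℤ) ≤ j := by
                  have : 2 ≤ j := by omega
                  exact_mod_cast this
                nlinarith
          have hnf1L : ¬ z'.Pi (f 1 - f L) := by
            intro h2
            have hbv : β 1 L (f 1 - f L) = 2 * N := (hA.root 1 L e1L).two
            have hb0 : β 1 L (f 0) = 0 := by
              rw [hA.be 1 L 0 e1L, if_neg e01, if_neg e0L]
              ring
            have hne : f 1 - f L ≠ f 0 := by
              intro h3
              rw [h3, hb0] at hbv
              omega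
            obtain ⟨j, hj⟩ := H79.pi_other H hφ' (mulz' h2 hne) h2
            have h3 := ac_eq_of_two hA ⟨z, hj⟩ e1L (by
              rw [map_sub, map_nsmul, hb0, smul_zero, sub_zero, hbv])
            rw [h3] at hj
            exact hn1L hj
          obtain ⟨D, hD, hDv, hDn⟩ := fieldC z' z hpos hzl h0L' hnf1 hnf1L k φ hφ
          exact real_of_ne H hzl hD hDv (N2.curve_u H hφ hD hDv hl hzl hsub hDn)
      · -- only `-f 1`
        obtain ⟨z', k, φ, hφ⟩ := exists_curve H z h1
        obtain ⟨φ', hφ', -⟩ := H490.exists_rev H hφ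
        rw [neg_neg] at hφ'
        have hl := mul h1 cneg1
        have hoth : ∀ ψ, z.Pi ψ → ψ ≠ -f 1 → 0 < c ψ := by
          intro ψ hψ hne
          have h2 := hc.ne ψ ⟨z, hψ⟩
          by_contra h3
          rcases hneg ψ hψ (by omega) with h | h
          · exact h0 (h ▸ hψ)
          · exact hne h
        have hpos : Pos c z' := by
          intro χ hχ
          by_contra hcon
          have hne : χ ≠ f 1 := by
            rintro rfl
            omega
          have hmul : ∀ k : ℤ, χ ≠ k • f 1 := by
            refine ne_smul H hχ ?_ hne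
            have := hφ.ya'
            rwa [neg_neg] at this
          obtain ⟨j, hj⟩ := H79.pi_other H hφ' hmul hχ
          have hcj : c (χ - j • f 1) < 0 := by
            rw [map_sub, map_nsmul, nsmul_eq_mul]
            have : (0 : ℤ) ≤ (j : ℤ) * c (f 1) := mul_nonneg (by positivity) (by omega)
            omega
          rcases hneg _ hj hcj with h | h
          · exact h0 (h ▸ hj)
          · refine hmul ((j : ℤ) - 1) ?_
            have h2 : χ = (χ - j • f 1) + j • f 1 := by abel
            rw [h2, h, sub_smul, one_smul, natCast_zsmul]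
            abel
        by_cases hz' : z'.Pi lam
        · rcases Nat.lt_or_ge n 3 with h3 | h3
          · exact fieldD (by omega) z' z hpos h1 hoth hzl hz' k φ hφ
          · obtain ⟨D, hD, hDv, hD0⟩ := down hφ cneg1 hz'
            refine real_of_ne H hzl hD hDv fun hval => ?_
            obtain ⟨j, hj, hj1⟩ := curve_ta H hφ hD hDv hl hval hD0
            have := lam_add hA hv h3 e1L ⟨z, hj1⟩
            omega
        · have hsub : ∀ j : ℕ, z'.Pi (lam - j • (-f 1)) → j = 1 := by
            intro j hj
            rcases lam_sub H hA hv hc ⟨z, h1⟩ cneg1 ⟨z', hj⟩ with h | ⟨h, -⟩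
            · subst h
              rw [zero_smul, sub_zero] at hj
              exact absurd hj hz'
            · exact h
          have hno : ¬ z.Pi (f 1 - f L) := by
            intro h2
            refine two_up H hφ hl hzl (w := E 1 L) (hA.root 1 L e1L).globE ?_
              ((hA.root 1 L e1L).atE z h2) hsub
            have h3 : lam - -f 1 = f 1 - f L := by
              rw [hlam]
              abel
            rw [h3]
            exact (hA.root 1 L e1L).hvE
          obtain ⟨D, hD, hDv, hDn⟩ := fieldB z' z hpos h1 hoth hno k φ hφ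
          exact real_of_ne H hzl hD hDv (N2.curve_u H hφ hD hDv hl hzl hsub hDn)
  intro z hz
  refine key ((c z.ν - K).toNat + 1) z ?_ hz
  have := hK z
  push_cast
  rw [Int.toNat_of_nonneg (by omega)]
  omega

end Vale.Agent.P280.H72
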