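import Vale.Agent.P280.H72.U

/-! P280, interior weights: the reversed curve; a field which is not zero along a curve. -/

open DirectSum Vale.Agent.P280.T Vale.Agent.P280.H127

namespace Vale.Agent.P280.H72

open Vale.Agent.P280.N Vale.Agent.P280.H746

variable {r : ℕ} {R : Type} [CommRing R] [IsDomain R] [Algebra ℂ R]
  {𝒜 : ℕ × (Fin r → ℤ) → Submodule ℂ R} [GradedAlgebra 𝒜]
variable {y y' : FP 𝒜} {a : Fin r → ℤ} {n : ℕ} {φ : R →ₐ[ℂ] Polynomial ℂ}

omit [IsDomain R] in
/-- The curve in the other direction. -/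
theorem curve_symm (H : Hyp 𝒜) (hφ : Curve y y' a n φ) :
    ∃ φ' : R →ₐ[ℂ] Polynomial ℂ, Curve y' y (-a) n φ' ∧ gp φ' = gp φ := by
  classical
  have ha : a ≠ 0 := Pi_ne H hφ.ya
  have hna : -a ≠ 0 := neg_ne_zero.2 ha
  set e : ℕ × (Fin r → ℤ) → ℕ := fun dm =>
    if h : ∃ i : ℕ, dm.2 = dm.1 • y'.ν - i • a then h.choose else 0 with he
  have hei : ∀ d (i : ℕ), e (d, d • y'.ν - i • a) = i := by
    intro d i
    have hex : ∃ j : ℕ, d • y'.ν - i • a = d • y'.ν - j • a := ⟨i, rfl⟩
    have h1 : e (d, d • y'.ν - i • a) = hex.choose := dif_pos hex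
    rw [h1]
    have h2 := hex.choose_spec
    exact (sub_inj' ha h2).symm
  obtain ⟨ψ, hψ⟩ := exists_algHom 𝒜
    (fun dm => (Polynomial.monomial (R := ℂ) (e dm)).comp (gp φ).toLinearMap) (by
      have h1 : e 0 = 0 := by
        have h2 := hei 0 0
        rw [zero_smul, zero_smul, sub_zero] at h2
        exact h2
      simp only [LinearMap.comp_apply, AlgHom.toLinearMap_apply, map_one, h1]
      exact Polynomial.monomial_zero_one) (by
      rintro ⟨d, m⟩ ⟨d', m'⟩ x hx x' hx'
      simp only [LinearMap.comp_apply, AlgHom.toLinearMap_apply, map_mul,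
        Polynomial.monomial_mul_monomial]
      by_cases h0 : gp φ x * gp φ x' = 0
      · rw [h0, map_zero, map_zero]
      · obtain ⟨-, i, -, -, hi⟩ := gp_ne hφ hx (left_ne_zero_of_mul h0)
        obtain ⟨-, j, -, -, hj⟩ := gp_ne hφ hx' (right_ne_zero_of_mul h0)
        have h1 : ((d, m) + (d', m') : ℕ × (Fin r → ℤ)) =
            (d + d', (d + d') • y'.ν - (i + j) • a) := by
          rw [hi, hj, Prod.mk_add_mk, add_smul, add_smul]
          congr 1
          abel
        rw [h1, hei, hi, hj, hei, hei])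
  have hψ' : ∀ d (i : ℕ), ∀ h ∈ 𝒜 (d, d • y'.ν - i • a), ψ h = Polynomial.monomial i (gp φ h) := by
    intro d i h hh
    rw [hψ _ h hh]
    simp only [LinearMap.comp_apply, AlgHom.toLinearMap_apply, hei]
  have hψ0 : ∀ d m, ∀ h ∈ 𝒜 (d, m), gp φ h = 0 → ψ h = 0 := by
    intro d m h hh h0
    rw [hψ _ h hh]
    simp only [LinearMap.comp_apply, AlgHom.toLinearMap_apply, h0, map_zero]
  have hgp : gp ψ = gp φ := by
    refine algHom_ext_hom 𝒜 ?_
    rintro ⟨d, m⟩ h hh
    rw [gp_apply, hψ _ h hh]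
    simp only [LinearMap.comp_apply, AlgHom.toLinearMap_apply, Polynomial.eval_monomial, one_pow,
      mul_one]
  refine ⟨ψ, ⟨hφ.n1, hφ.ya', by rw [neg_neg]; exact hφ.ya, ?_, ?_, ?_, ?_, ?_, ?_⟩, hgp⟩
  · rw [hφ.nu, smul_neg]
    abel
  · intro d m h hh hne
    have h1 : gp φ h ≠ 0 := fun h0 => hne (hψ0 d m h hh h0)
    obtain ⟨i, j, hij, -, hm⟩ := gp_ne hφ hh h1
    refine ⟨j, by omega, by rw [hm, smul_neg, sub_eq_add_neg], gp φ h, ?_⟩
    rw [hψ' d j h (hm ▸ hh), Polynomial.C_mul_X_pow_eq_monomial]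
  · have h1 : (Polynomial.aeval (0 : ℂ)).comp ψ = y'.q := by
      refine algHom_ext_hom 𝒜 ?_
      rintro ⟨d, m⟩ h hh
      rw [AlgHom.comp_apply]
      by_cases hph : gp φ h = 0
      · rw [hψ0 d m h hh hph, map_zero]
        by_contra hne
        have hm := y'.fix d m h hh (Ne.symm hne)
        subst hm
        exact hne (by rw [← q'_eq hφ ha hh, hph])
      · obtain ⟨-, i, -, -, hi⟩ := gp_ne hφ hh hph
        rw [hψ' d i h (hi ▸ hh), Polynomial.aeval_monomial]
        rcases Nat.eq_zero_or_pos i with h0 | h0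
        · subst h0
          rw [pow_zero, mul_one]
          rw [zero_smul, sub_zero] at hi
          exact q'_eq hφ ha (hi ▸ hh)
        · rw [zero_pow (by omega), mul_zero]
          by_contra hne
          have hm := y'.fix d _ h hh (Ne.symm hne)
          have h2 : d • y'.ν - i • a = d • y'.ν - 0 • a := by
            rw [zero_smul, sub_zero, ← hi, ← hm]
          have := sub_inj' ha h2
          omega
    intro h
    rw [← h1, AlgHom.comp_apply, Polynomial.coe_aeval_eq_eval]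
  · intro d m h hh
    by_cases hph : gp φ h = 0
    · rw [hψ0 d m h hh hph, Polynomial.coeff_zero]
      by_contra hne
      have hm := y.fix d m h hh (Ne.symm hne)
      subst hm
      exact hne (by rw [← q_eq hφ ha hh, hph])
    · obtain ⟨i, j, hij, hi, hj⟩ := gp_ne hφ hh hph
      rw [hψ' d j h (hj ▸ hh), Polynomial.coeff_monomial]
      by_cases h0 : j = d * n
      · have h1 : i = 0 := by omega
        rw [if_pos h0]
        rw [h1, zero_smul, add_zero] at hi
        exact q_eq hφ ha (hi ▸ hh)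
      · rw [if_neg h0]
        by_contra hne
        have hm := y.fix d m h hh (Ne.symm hne)
        rw [hm] at hi
        have h1 : d • y.ν + 0 • a = d • y.ν + i • a := by rw [zero_smul, add_zero, ← hi]
        have := nsmul_inj' ha (add_left_cancel h1)
        omega
  · obtain ⟨d, h, hh, hne⟩ := hφ.un'
    have h1 : φ h ≠ 0 := fun h0 => hne (by rw [h0, Polynomial.coeff_zero])
    have h3 : h ∈ 𝒜 (d, d • y'.ν - 1 • a) := by rwa [one_smul]
    obtain ⟨i, hi, hm, c, hc⟩ := hφ.hom d _ h hh h1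
    have h2 : gp φ h ≠ 0 := by
      rw [gp_apply, hc]
      intro h0
      apply h1
      rw [hc]
      simp only [Polynomial.eval_mul, Polynomial.eval_C, Polynomial.eval_pow, Polynomial.eval_X,
        one_pow, mul_one] at h0
      rw [h0, Polynomial.C_0, zero_mul]
    refine ⟨d, h, by rw [← sub_eq_add_neg]; exact hh, ?_⟩
    rw [hψ' d 1 h h3, Polynomial.coeff_monomial, if_pos rfl]
    exact h2
  · obtain ⟨d, h, hh, hne⟩ := hφ.un
    have h3 : h ∈ 𝒜 (d, d • y.ν + 1 • a) := by rwa [one_smul]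
    have h1 := phi_eq hφ ha h3
    have h2 : gp φ h ≠ 0 := by
      intro h0
      apply hne
      rw [h1, h0, Polynomial.C_0, zero_mul, Polynomial.coeff_zero]
    obtain ⟨i, j, hij, hi, hj⟩ := gp_ne hφ h3 h2
    have h4 : i = 1 := (nsmul_inj' ha (add_left_cancel hi)).symm
    refine ⟨d, h, by rw [sub_neg_eq_add]; exact hh, ?_⟩
    rw [hψ' d j h (hj ▸ h3), Polynomial.coeff_monomial, if_pos (by omega)]
    exact h2

/-- Lemma (U) at the other end. -/
theorem curve_u' (H : Hyp 𝒜) (hφ : Curve y y' a n φ) {lam : Fin r → ℤ} {D : VF R}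
    (hD : Glob D) (hDv : HV 𝒜 lam D) (hl : ∀ k : ℤ, lam ≠ k • a) (hlam : y'.Pi lam)
    (hne : ∃ h e : R, D (iK h) = iK e ∧ gp φ e ≠ 0) {k0 : ℕ}
    (huniq : ∀ k : ℕ, y.Pi (lam + k • a) → k = k0) : ¬ ValV y'.q D 0 := by
  obtain ⟨ψ, hψ, hgp⟩ := curve_symm H hφ
  refine curve_u H hψ hD hDv (fun k hk => hl (-k) ?_) hlam (by rw [hgp]; exact hne) (k0 := k0) ?_
  · rw [hk, smul_neg, neg_smul]
  · intro k hk
    apply huniq k
    rwa [smul_neg, sub_neg_eq_add] at hk

/-- A field which does not vanish at an end does not vanish along the curve. -/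
theorem ne_of_end (H : Hyp 𝒜) (hφ : Curve y y' a n φ) {lam : Fin r → ℤ} {D : VF R}
    (hD : Glob D) (hDv : HV 𝒜 lam D) (h0 : ¬ ValV y'.q D 0) :
    ∃ h e : R, D (iK h) = iK e ∧ gp φ e ≠ 0 := by
  classical
  have ha : a ≠ 0 := Pi_ne H hφ.ya
  obtain ⟨E, rfl, hE⟩ := hD.exists_hder hDv
  by_contra hcon
  push Not at hcon
  apply h0
  have h1 : (y'.q.toLinearMap.comp (E : R →ₗ[ℂ] R)) = 0 := by
    apply H644.ext_hom (𝒜 := 𝒜)
    rintro ⟨d, m⟩ h hh
    change y'.q (E h) = 0
    by_contra h2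
    have h3 := hE d m h hh
    have h4 := y'.fix _ _ _ h3 h2
    rw [h4] at h3
    rw [← q'_eq hφ ha h3] at h2
    exact h2 (hcon h (E h) (by rw [toVF_iK]))
  have h2 : ValV y'.q (toVF E) (y'.q.toLinearMap.comp (E : R →ₗ[ℂ] R)) := by
    intro h
    rw [toVF_iK]
    exact Val.iK (E h)
  rwa [h1] at h2

/-- A global field which vanishes along the curve commutes, at the end, with the tangent
fields of the curve. -/
theorem ne_of_bracket (H : Hyp 𝒜) (hφ : Curve y y' a n φ) {lam : Fin r → ℤ} {D w : VF R}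
    (hD : Glob D) (hDv : HV 𝒜 lam D) (hw : Glob w) (hwv : HV 𝒜 a w)
    (h0 : ¬ ValV y.q ⁅w, D⁆ 0) : ∃ h e : R, D (iK h) = iK e ∧ gp φ e ≠ 0 := by
  classical
  have ha : a ≠ 0 := Pi_ne H hφ.ya
  obtain ⟨E, rfl, hE⟩ := hD.exists_hder hDv
  obtain ⟨W, rfl, hW⟩ := hw.exists_hder hwv
  by_contra hcon
  push Not at hcon
  have hgE : ∀ h, gp φ (E h) = 0 := fun h => hcon h (E h) (by rw [toVF_iK])
  -- `φ ∘ E = 0`
  have hφE : ∀ h, φ (E h) = 0 := by
    have h1 : (φ.toLinearMap.comp (E : R →ₗ[ℂ] R)) = 0 := by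
      apply H644.ext_hom (𝒜 := 𝒜)
      rintro ⟨d, m⟩ h hh
      change φ (E h) = 0
      by_contra h2
      obtain ⟨i, hi, hm, c, hc⟩ := hφ.hom _ _ _ (hE d m h hh) h2
      have h3 := hgE h
      rw [gp_apply, hc] at h3
      apply h2
      simp only [Polynomial.eval_mul, Polynomial.eval_C, Polynomial.eval_pow, Polynomial.eval_X,
        one_pow, mul_one] at h3
      rw [hc, h3, Polynomial.C_0, zero_mul]
    exact fun h => LinearMap.congr_fun h1 h
  have hqE : ∀ h, y.q (E h) = 0 := fun h => by rw [← hφ.ev, hφE, Polynomial.eval_zero]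
  -- the tangent vector of the curve
  have ht : IsTangent y.q ((Polynomial.lcoeff ℂ 1).comp φ.toLinearMap) := by
    intro x z
    simp only [LinearMap.comp_apply, AlgHom.toLinearMap_apply, Polynomial.lcoeff_apply, map_mul]
    rw [Polynomial.coeff_mul, Finset.Nat.antidiagonal_succ]
    simp only [Finset.Nat.antidiagonal_zero, Finset.map_singleton, Finset.sum_cons,
      Finset.sum_singleton, Function.Embedding.prodMap, Function.Embedding.coeFn_mk,
      Prod.map_apply, Function.Embedding.refl_apply]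
    rw [← hφ.ev x, ← hφ.ev z, ← Polynomial.coeff_zero_eq_eval_zero,
      ← Polynomial.coeff_zero_eq_eval_zero]
    simp only [Nat.succ_eq_add_one, zero_add]
    ring
  have htw : HasWeight 𝒜 y.ν a ((Polynomial.lcoeff ℂ 1).comp φ.toLinearMap) := by
    intro d m h hh hne
    simp only [LinearMap.comp_apply, AlgHom.toLinearMap_apply, Polynomial.lcoeff_apply] at hne
    have h1 : φ h ≠ 0 := fun h0 => hne (by rw [h0, Polynomial.coeff_zero])
    obtain ⟨i, hi, hm, c, hc⟩ := hφ.hom d m h hh h1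
    rw [hc, Polynomial.coeff_C_mul_X_pow] at hne
    have h2 : 1 = i := by
      by_contra h2
      exact hne (if_neg h2)
    rw [hm, ← h2, one_smul]
  have hWt : IsTangent y.q (y.q.toLinearMap.comp (W : R →ₗ[ℂ] R)) := by
    intro x z
    simp only [LinearMap.comp_apply, AlgHom.toLinearMap_apply, Derivation.coeFn_coe,
      Derivation.leibniz, smul_eq_mul, map_add, map_mul]
  have hWw : HasWeight 𝒜 y.ν a (y.q.toLinearMap.comp (W : R →ₗ[ℂ] R)) := by
    intro d m h hh hne
    have h1 := y.fix _ _ _ (hW d m h hh) hne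
    rw [← h1]
    abel
  obtain ⟨b1, b2, hb, hlin⟩ := H.mult y.q y.ν a y.nv y.fix hφ.ya _ _ ht htw hWt hWw
  obtain ⟨du, hu, hhu, hune⟩ := hφ.un
  have hb2 : b2 ≠ 0 := by
    intro hb2
    have h1 := hlin hu
    rw [hb2, zero_mul, add_zero] at h1
    rcases hb with h2 | h2
    · exact (mul_ne_zero h2 hune) h1
    · exact h2 hb2
  have hWE : ∀ h, y.q (W (E h)) = 0 := by
    intro h
    have h1 := hlin (E h)
    simp only [LinearMap.comp_apply, AlgHom.toLinearMap_apply, Polynomial.lcoeff_apply, hφE,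
      Polynomial.coeff_zero, mul_zero, zero_add, Derivation.coeFn_coe] at h1
    exact (mul_eq_zero.1 h1).resolve_left hb2
  apply h0
  intro h
  rw [LinearMap.zero_apply]
  have h1 : ⁅toVF W, toVF E⁆ (iK h) = iK (W (E h) - E (W h)) := by
    rw [Derivation.commutator_apply, toVF_iK, toVF_iK, toVF_iK, toVF_iK]
    exact (map_sub (algebraMap R (FractionRing R)) _ _).symm
  rw [h1]
  have h2 := Val.iK (q := y.q) (W (E h) - E (W h))
  rwa [map_sub, hWE, hqE, sub_zero] at h2

end Vale.Agent.P280.H72
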