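import Vale.Agent.P280.N.B03
import Vale.Agent.P280.H644.Step
import Vale.Agent.P280.H746.CurvePt

/-! P280, interior weights: transport of a global field along a `T`-curve (Lemma (U)). -/

open DirectSum Vale.Agent.P280.T Vale.Agent.P280.H127

namespace Vale.Agent.P280.H72

open Vale.Agent.P280.N Vale.Agent.P280.H746

variable {r : ℕ} {R : Type} [CommRing R] [IsDomain R] [Algebra ℂ R]
  {𝒜 : ℕ × (Fin r → ℤ) → Submodule ℂ R} [GradedAlgebra 𝒜]
variable {y y' : FP 𝒜} {a : Fin r → ℤ} {n : ℕ} {φ : R →ₐ[ℂ] Polynomial ℂ}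

/-- The general point of a curve. -/
noncomputable def gp (φ : R →ₐ[ℂ] Polynomial ℂ) : R →ₐ[ℂ] ℂ := (Polynomial.aeval (1 : ℂ)).comp φ

omit [IsDomain R] in
theorem gp_apply (h : R) : gp φ h = (φ h).eval 1 := by
  rw [gp, AlgHom.comp_apply, Polynomial.coe_aeval_eq_eval]

omit [IsDomain R] [GradedAlgebra 𝒜] in
theorem gp_ne (hφ : Curve y y' a n φ) {d : ℕ} {m : Fin r → ℤ} {h : R} (hh : h ∈ 𝒜 (d, m))
    (hne : gp φ h ≠ 0) :
    ∃ i j : ℕ, i + j = d * n ∧ m = d • y.ν + i • a ∧ m = d • y'.ν - j • a := by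
  have h0 : φ h ≠ 0 := fun h0 => hne (by rw [gp_apply, h0, Polynomial.eval_zero])
  obtain ⟨i, hi, hm, -⟩ := hφ.hom d m h hh h0
  refine ⟨i, d * n - i, by omega, hm, ?_⟩
  rw [hφ.nu, hm, smul_add, smul_smul]
  have h1 : (d * n) • a = i • a + (d * n - i) • a := by
    rw [← add_smul]
    congr 1
    omega
  rw [h1]
  abel

omit [IsDomain R] [GradedAlgebra 𝒜] in
theorem phi_eq (hφ : Curve y y' a n φ) (ha : a ≠ 0) {d i : ℕ} {h : R}
    (hh : h ∈ 𝒜 (d, d • y.ν + i • a)) : φ h = Polynomial.C (gp φ h) * Polynomial.X ^ i := by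
  by_cases h0 : φ h = 0
  · rw [gp_apply, h0]
    simp
  obtain ⟨i', hi', hm, c, hc⟩ := hφ.hom _ _ h hh h0
  have h1 : i = i' := nsmul_inj' ha (add_left_cancel hm)
  subst h1
  rw [gp_apply, hc]
  simp

omit [IsDomain R] [GradedAlgebra 𝒜] in
theorem q_eq (hφ : Curve y y' a n φ) (ha : a ≠ 0) {d : ℕ} {h : R} (hh : h ∈ 𝒜 (d, d • y.ν)) :
    gp φ h = y.q h := by
  have h1 := phi_eq hφ ha (d := d) (i := 0) (h := h) (by
    have h2 : d • y.ν + 0 • a = d • y.ν := by rw [zero_smul, add_zero]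
    rwa [h2])
  rw [← hφ.ev, h1]
  simp

omit [IsDomain R] [GradedAlgebra 𝒜] in
theorem q'_eq (hφ : Curve y y' a n φ) (ha : a ≠ 0) {d : ℕ} {h : R} (hh : h ∈ 𝒜 (d, d • y'.ν)) :
    gp φ h = y'.q h := by
  have hh' : h ∈ 𝒜 (d, d • y.ν + (d * n) • a) := by
    rwa [hφ.nu, smul_add, smul_smul] at hh
  have h1 := phi_eq hφ ha hh'
  rw [← hφ.ev' d _ h hh, h1]
  simp

theorem sub_inj' {x : Fin r → ℤ} (ha : a ≠ 0) {i j : ℕ} (h : x - i • a = x - j • a) : i = j :=
  nsmul_inj' ha (sub_right_injective h)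

/-- The leading part at `y'` of a derivation at the general point. -/
theorem lead (ha : a ≠ 0) (hφ : Curve y y' a n φ) {lam : Fin r → ℤ} {c : R →ₗ[ℂ] ℂ}
    (hc : ∀ f g, c (f * g) = gp φ f * c g + gp φ g * c f) {k : ℕ}
    (hs : ∀ d m, ∀ h ∈ 𝒜 (d, m), c h ≠ 0 → ∃ j : ℕ, k ≤ j ∧ m = d • y'.ν + lam - j • a) :
    ∃ t : R →ₗ[ℂ] ℂ, IsTangent y'.q t ∧ HasWeight 𝒜 y'.ν (lam - k • a) t ∧
      ∀ d, ∀ h ∈ 𝒜 (d, d • y'.ν + lam - k • a), t h = c h := by
  classical
  refine ⟨H644.tw 𝒜 fun i => if i.2 = i.1 • y'.ν + lam - k • a then c else 0, ?_, ?_, ?_⟩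
  · have key : ∀ {i j : ℕ × (Fin r → ℤ)} {f g : R}, f ∈ 𝒜 i → g ∈ 𝒜 j →
        y'.q f * H644.tw 𝒜 (fun i => if i.2 = i.1 • y'.ν + lam - k • a then c else 0) g =
        if (i + j).2 = (i + j).1 • y'.ν + lam - k • a then gp φ f * c g else 0 := by
      rintro ⟨d, m⟩ ⟨d', m'⟩ f g hf hg
      rw [H644.tw_mem 𝒜 _ hg]
      by_cases h1 : gp φ f = 0
      · have h2 : y'.q f = 0 := by
          by_contra h2
          have h3 := y'.fix d m f hf h2
          subst h3
          rw [← q'_eq hφ ha hf] at h2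
          exact h2 h1
        rw [h1, h2]
        simp
      by_cases h2 : c g = 0
      · split_ifs <;> simp [h2]
      obtain ⟨i1, j1, -, -, hm1⟩ := gp_ne hφ hf h1
      obtain ⟨j2, hj2, hm2⟩ := hs d' m' g hg h2
      have e1 : ((d, m) + (d', m') : ℕ × (Fin r → ℤ)).2 =
          ((d, m) + (d', m') : ℕ × (Fin r → ℤ)).1 • y'.ν + lam - (j1 + j2) • a := by
        simp only [Prod.mk_add_mk, hm1, hm2, add_smul]
        abel
      by_cases h3 : j2 = k
      · by_cases h4 : j1 = 0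
        · have h5 : ((d, m) + (d', m') : ℕ × (Fin r → ℤ)).2 =
              ((d, m) + (d', m') : ℕ × (Fin r → ℤ)).1 • y'.ν + lam - k • a := by
            rw [e1, h3, h4, zero_add]
          rw [if_pos (by rw [hm2, h3]), if_pos h5]
          subst h4
          rw [zero_smul, sub_zero] at hm1
          subst hm1
          rw [q'_eq hφ ha hf]
        · have h5 : y'.q f = 0 := by
            by_contra h5
            have h6 := y'.fix d m f hf h5
            rw [hm1] at h6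
            apply h4
            have h7 : d • y'.ν - j1 • a = d • y'.ν - 0 • a := by rw [h6, zero_smul, sub_zero]
            exact sub_inj' ha h7
          rw [h5, zero_mul, if_neg]
          intro h6
          rw [e1] at h6
          have h7 := sub_inj' ha h6
          omega
      · rw [if_neg, if_neg, LinearMap.zero_apply, mul_zero]
        · intro h6
          rw [e1] at h6
          have h7 := sub_inj' ha h6
          omega
        · intro h6
          simp only at h6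
          rw [hm2] at h6
          exact h3 (sub_inj' ha h6)
    refine H644.isDer_of_hom (𝒜 := 𝒜) fun i j f hf g hg => ?_
    rw [key hf hg, key hg hf, H644.tw_mem 𝒜 _ (SetLike.mul_mem_graded hf hg), add_comm j i]
    split_ifs
    · exact hc f g
    · simp
  · intro d m h hh hne
    rw [H644.tw_mem 𝒜 _ hh] at hne
    by_cases h1 : m = d • y'.ν + lam - k • a
    · rw [h1]
      abel
    · exfalso
      apply hne
      simp only
      rw [if_neg h1, LinearMap.zero_apply]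
  · intro d h hh
    rw [H644.tw_mem 𝒜 _ hh]
    simp only
    rw [if_pos trivial]

/-- A nonzero derivation at the general point has an order at `y'`. -/
theorem lead_pi (ha : a ≠ 0) (hφ : Curve y y' a n φ) {lam : Fin r → ℤ}
    (hl : ∀ k : ℤ, lam ≠ k • a) {c : R →ₗ[ℂ] ℂ}
    (hc : ∀ f g, c (f * g) = gp φ f * c g + gp φ g * c f) {k0 : ℕ}
    (hs : ∀ d m, ∀ h ∈ 𝒜 (d, m), c h ≠ 0 → ∃ j : ℕ, k0 ≤ j ∧ m = d • y'.ν + lam - j • a)
    (hne : c ≠ 0) :
    ∃ k : ℕ, k0 ≤ k ∧ y'.Pi (lam - k • a) ∧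
      (∀ d m, ∀ h ∈ 𝒜 (d, m), c h ≠ 0 → ∃ j : ℕ, k ≤ j ∧ m = d • y'.ν + lam - j • a) ∧
      ∃ d, ∃ h ∈ 𝒜 (d, d • y'.ν + lam - k • a), c h ≠ 0 := by
  classical
  have hex : ∃ k : ℕ, ∃ d, ∃ h ∈ 𝒜 (d, d • y'.ν + lam - k • a), c h ≠ 0 := by
    by_contra hcon
    push Not at hcon
    apply hne
    apply H644.ext_hom (𝒜 := 𝒜)
    rintro ⟨d, m⟩ h hh
    by_contra h1
    obtain ⟨j, -, hm⟩ := hs d m h hh h1
    subst hm
    exact h1 (hcon j d h hh)
  have hk := Nat.find_spec hex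
  have hmin : ∀ d m, ∀ h ∈ 𝒜 (d, m), c h ≠ 0 →
      ∃ j : ℕ, Nat.find hex ≤ j ∧ m = d • y'.ν + lam - j • a := by
    intro d m h hh h1
    obtain ⟨j, -, hm⟩ := hs d m h hh h1
    refine ⟨j, ?_, hm⟩
    subst hm
    exact Nat.find_min' hex ⟨d, h, hh, h1⟩
  generalize Nat.find hex = k at hk hmin
  have hk' := hk
  obtain ⟨d, h, hh, h1⟩ := hk'
  refine ⟨k, ?_, ?_, hmin, hk⟩
  · obtain ⟨j, hj, hm⟩ := hs d _ h hh h1
    have := sub_inj' ha hm
    omega
  · obtain ⟨t, ht, hw, hth⟩ := lead ha hφ hc hmin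
    refine tangentWeight_of_ne y'.fix ?_ ht hw ?_
    · intro h0
      apply hl (k : ℤ)
      rw [natCast_zsmul]
      exact sub_eq_zero.1 h0
    · intro h0
      apply h1
      rw [← hth d h hh, h0, LinearMap.zero_apply]

omit [IsDomain R] [GradedAlgebra 𝒜] in
theorem freeCurves (hN : NefOnRationalCurves 𝒜) :
    H644.FreeCurves 𝒜 (AddMonoidHom.fst ℕ (Fin r → ℤ)) := by
  intro e ψ h1 h2 p hp v hv
  obtain ⟨δ, hδ, hδ', hv'⟩ := hN e ψ (fun d m h hh => h1 (d, m) h hh) (fun b hb hver => by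
    obtain ⟨i, hi, h, hh, hne⟩ := h2 b hb
    exact hne (hver i.1 i.2 hi h hh)) p hp v hv
  exact ⟨δ, hδ, fun i h hh => hδ' i.1 i.2 h hh, hv'⟩

/-- nefness: a tangent vector of weight `lam` at `y` extends along the curve -/
theorem exists_lift_cls (H : Hyp 𝒜) (hφ : Curve y y' a n φ) {lam : Fin r → ℤ}
    {t : R →ₗ[ℂ] ℂ} (ht : IsTangent y.q t) (hw : HasWeight 𝒜 y.ν lam t) :
    ∃ c : R →ₗ[ℂ] ℂ, (∀ f g, c (f * g) = gp φ f * c g + gp φ g * c f) ∧
      (∀ d m, ∀ h ∈ 𝒜 (d, m), c h ≠ 0 → ∃ j : ℕ, m = d • y'.ν + lam - j • a) ∧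
      ∀ d, ∀ h ∈ 𝒜 (d, d • y.ν + lam), c h = t h := by
  classical
  have ha : a ≠ 0 := Pi_ne H hφ.ya
  -- a functional positive on `a`
  obtain ⟨k0, hk0⟩ := Function.ne_iff.1 ha
  set L : (Fin r → ℤ) →+ ℤ := (AddMonoidHom.mulLeft (a k0)).comp (Pi.evalAddMonoidHom _ k0) with hL
  have hLa : 0 < L a := by
    have : L a = a k0 * a k0 := rfl
    rw [this]
    exact mul_self_pos.mpr (by simpa using hk0)
  set deg : ℕ × (Fin r → ℤ) →+ ℕ := AddMonoidHom.fst ℕ (Fin r → ℤ) with hdeg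
  set wt : ℕ × (Fin r → ℤ) →+ ℤ := (-L).comp (AddMonoidHom.snd ℕ (Fin r → ℤ)) with hwt
  have hdeg' : ∀ i, deg i = i.1 := fun i => rfl
  have hwt' : ∀ i, wt i = -(L i.2) := fun i => rfl
  have hLν : L y'.ν = L y.ν + n * L a := by
    rw [hφ.nu, map_add, map_nsmul, nsmul_eq_mul]
  have hnLa : 0 ≤ (n : ℤ) * L a := mul_nonneg (by positivity) hLa.le
  have hα0 : ∀ i, H644.slope deg wt (-(L y'.ν)) i = L (i.1 • y'.ν - i.2) := by
    intro i
    rw [H644.slope_apply, hwt', hdeg', map_sub, map_nsmul, nsmul_eq_mul]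
    ring
  have hβ0 : ∀ i, (-H644.slope deg wt (-(L y.ν))) i = L (i.2 - i.1 • y.ν) := by
    intro i
    rw [AddMonoidHom.neg_apply, H644.slope_apply, hwt', hdeg', map_sub, map_nsmul, nsmul_eq_mul]
    ring
  have hα : H644.Supp 𝒜 (gp φ) (H644.slope deg wt (-(L y'.ν))) := by
    rintro ⟨d, m⟩ h hh hne
    obtain ⟨i, j, -, -, hm⟩ := gp_ne hφ hh hne
    rw [hα0]
    simp only
    rw [hm, sub_sub_cancel, map_nsmul, nsmul_eq_mul]
    exact mul_nonneg (by positivity) hLa.le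
  have hβ : H644.Supp 𝒜 (gp φ) (-H644.slope deg wt (-(L y.ν))) := by
    rintro ⟨d, m⟩ h hh hne
    obtain ⟨i, j, -, hm, -⟩ := gp_ne hφ hh hne
    rw [hβ0]
    simp only
    rw [hm, add_sub_cancel_left, map_nsmul, nsmul_eq_mul]
    exact mul_nonneg (by positivity) hLa.le
  have hlim : ∀ h, H644.lim 𝒜 hβ h = y.q h := by
    have h1 := H644.ext_hom (𝒜 := 𝒜) (f := (H644.lim 𝒜 hβ).toLinearMap) (g := y.q.toLinearMap) ?_
    · exact fun h => LinearMap.congr_fun h1 h
    rintro ⟨d, m⟩ h hh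
    simp only [AlgHom.toLinearMap_apply]
    rw [H644.lim_mem 𝒜 hβ hh, hβ0]
    simp only
    by_cases h2 : gp φ h = 0
    · have h3 : y.q h = 0 := by
        by_contra h3
        have h4 := y.fix d m h hh h3
        subst h4
        rw [← q_eq hφ ha hh] at h3
        exact h3 h2
      rw [h2, h3]
      simp
    · obtain ⟨i, j, -, hm, -⟩ := gp_ne hφ hh h2
      by_cases h3 : i = 0
      · subst h3
        rw [zero_smul, add_zero] at hm
        subst hm
        rw [sub_self, map_zero, if_pos rfl]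
        exact q_eq hφ ha hh
      · rw [if_neg]
        · by_contra h4
          have h5 := y.fix d m h hh (Ne.symm h4)
          rw [hm] at h5
          apply h3
          have h6 : d • y.ν + i • a = d • y.ν + 0 • a := by rw [h5, zero_smul, add_zero]
          exact nsmul_inj' ha (add_left_cancel h6)
        · rw [hm, add_sub_cancel_left, map_nsmul, nsmul_eq_mul]
          have : (0 : ℤ) < i := by exact_mod_cast Nat.pos_of_ne_zero h3
          positivity
  obtain ⟨f, hf, hqf⟩ := exists_deg_one_ne H.hX.gen y.nv y.fix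
  obtain ⟨f', hf', hqf'⟩ := exists_deg_one_ne H.hX.gen y'.nv y'.fix
  obtain ⟨c, hc, hcs, hct⟩ := H644.exists_lift 𝒜 (freeCurves H.hN) (z := gp φ)
    (μ := -(L y'.ν)) (ν := -(L y.ν)) (wt := wt) (by linarith) hα hβ
    ⟨(1, y'.ν), one_pos, by
      rw [hα0]
      simp, f', hf', by
      rw [q'_eq hφ ha (by rwa [one_smul])]
      exact hqf'⟩
    ⟨(1, y.ν), one_pos, by
      have h1 := hβ0 (1, y.ν)
      rw [AddMonoidHom.neg_apply] at h1
      have h2 : L ((1, y.ν) : ℕ × (Fin r → ℤ)).2 = L y.ν := rfl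
      simp only [one_smul, sub_self, map_zero] at h1
      linarith, f, hf, by
      rw [q_eq hφ ha (by rwa [one_smul])]
      exact hqf⟩ (w := -(L lam)) (v := t) (by
      intro x z
      rw [hlim, hlim]
      exact ht x z) (by
      rintro ⟨d, m⟩ h hh hne
      have h1 := hw d m h hh hne
      rw [hwt', hdeg']
      simp only
      rw [h1, map_add, map_nsmul, nsmul_eq_mul]
      ring)
  refine ⟨H644.tw 𝒜 fun i => if ∃ l : ℤ, i.2 = i.1 • y'.ν + lam - l • a then c else 0, ?_, ?_, ?_⟩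
  · have key : ∀ {i j : ℕ × (Fin r → ℤ)} {f g : R}, f ∈ 𝒜 i → g ∈ 𝒜 j →
        gp φ f * H644.tw 𝒜 (fun i => if ∃ l : ℤ, i.2 = i.1 • y'.ν + lam - l • a then c else 0) g =
        if ∃ l : ℤ, (i + j).2 = (i + j).1 • y'.ν + lam - l • a then gp φ f * c g else 0 := by
      rintro ⟨d, m⟩ ⟨d', m'⟩ f g hf hg
      rw [H644.tw_mem 𝒜 _ hg]
      by_cases h1 : gp φ f = 0
      · rw [h1]
        simp
      obtain ⟨i1, j1, -, -, hm1⟩ := gp_ne hφ hf h1
      have hiff : (∃ l : ℤ, ((d', m') : ℕ × (Fin r → ℤ)).2 =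
          ((d', m') : ℕ × (Fin r → ℤ)).1 • y'.ν + lam - l • a) ↔
          ∃ l : ℤ, ((d, m) + (d', m') : ℕ × (Fin r → ℤ)).2 =
          ((d, m) + (d', m') : ℕ × (Fin r → ℤ)).1 • y'.ν + lam - l • a := by
        simp only [Prod.mk_add_mk]
        constructor
        · rintro ⟨l, hl⟩
          refine ⟨l + j1, ?_⟩
          rw [hm1, hl, add_smul, add_smul, natCast_zsmul]
          abel
        · rintro ⟨l, hl⟩
          refine ⟨l - j1, ?_⟩
          rw [hm1, add_smul] at hl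
          rw [sub_smul, natCast_zsmul]
          have h2 : m' = (d • y'.ν - j1 • a + m') - (d • y'.ν - j1 • a) := by abel
          rw [h2, hl]
          abel
      by_cases h3 : ∃ l : ℤ, ((d, m) + (d', m') : ℕ × (Fin r → ℤ)).2 =
          ((d, m) + (d', m') : ℕ × (Fin r → ℤ)).1 • y'.ν + lam - l • a
      · rw [if_pos (hiff.2 h3), if_pos h3]
      · rw [if_neg (fun h => h3 (hiff.1 h)), if_neg h3, LinearMap.zero_apply, mul_zero]
    refine H644.isDer_of_hom (𝒜 := 𝒜) fun i j f hf g hg => ?_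
    rw [key hf hg, key hg hf, H644.tw_mem 𝒜 _ (SetLike.mul_mem_graded hf hg), add_comm j i]
    split_ifs
    · exact hc f g
    · simp
  · intro d m h hh hne
    rw [H644.tw_mem 𝒜 _ hh] at hne
    by_cases h1 : ∃ l : ℤ, m = d • y'.ν + lam - l • a
    · rw [if_pos h1] at hne
      obtain ⟨l, hl⟩ := h1
      have h2 := hcs _ h hh hne
      rw [hα0] at h2
      simp only at h2
      rw [hl] at h2
      have h3 : d • y'.ν - (d • y'.ν + lam - l • a) = l • a - lam := by abel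
      rw [h3, map_sub, map_zsmul, smul_eq_mul] at h2
      have h4 : 0 ≤ l := by
        by_contra h5
        push Not at h5
        nlinarith
      refine ⟨l.toNat, ?_⟩
      rw [hl]
      congr 1
      rw [← natCast_zsmul, Int.toNat_of_nonneg h4]
    · exfalso
      rw [if_neg h1] at hne
      exact hne rfl
  · intro d h hh
    rw [H644.tw_mem 𝒜 _ hh, if_pos]
    · apply hct _ h hh
      rw [hwt', hdeg']
      simp only
      rw [map_add, map_nsmul, nsmul_eq_mul]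
      ring
    · refine ⟨(d * n : ℕ), ?_⟩
      simp only
      rw [natCast_zsmul, hφ.nu, smul_add, smul_smul]
      abel

omit [IsDomain R] [GradedAlgebra 𝒜] in
/-- A homogeneous global field at the general point of the curve. -/
theorem gp_field (hφ : Curve y y' a n φ) {lam : Fin r → ℤ} {E : Derivation ℂ R R}
    (hE : ∀ d m, ∀ h ∈ 𝒜 (d, m), E h ∈ 𝒜 (d, m - lam)) :
    (∀ f g, ((gp φ).toLinearMap.comp (E : R →ₗ[ℂ] R)) (f * g) =
      gp φ f * ((gp φ).toLinearMap.comp (E : R →ₗ[ℂ] R)) g +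
      gp φ g * ((gp φ).toLinearMap.comp (E : R →ₗ[ℂ] R)) f) ∧
    ∀ d m, ∀ h ∈ 𝒜 (d, m), ((gp φ).toLinearMap.comp (E : R →ₗ[ℂ] R)) h ≠ 0 →
      ∃ j : ℕ, 0 ≤ j ∧ m = d • y'.ν + lam - j • a := by
  constructor
  · intro f g
    simp only [LinearMap.comp_apply, AlgHom.toLinearMap_apply, Derivation.coeFn_coe,
      Derivation.leibniz, smul_eq_mul, map_add, map_mul]
  · intro d m h hh hne
    simp only [LinearMap.comp_apply, AlgHom.toLinearMap_apply, Derivation.coeFn_coe] at hne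
    obtain ⟨-, j, -, -, hj⟩ := gp_ne hφ (hE d m h hh) hne
    refine ⟨j, Nat.zero_le _, ?_⟩
    have h1 : m = (m - lam) + lam := by abel
    rw [h1, hj]
    abel

/-- **Lemma (U)**: a global field of weight `lam`, not zero along the curve, is not zero at the
end `y` if `lam` is a weight of `y` and the class of `lam` has one possible order at `y'`. -/
theorem curve_u (H : Hyp 𝒜) (hφ : Curve y y' a n φ) {lam : Fin r → ℤ} {D : VF R}
    (hD : Glob D) (hDv : HV 𝒜 lam D) (hl : ∀ k : ℤ, lam ≠ k • a) (hlam : y.Pi lam)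
    (hne : ∃ h e : R, D (iK h) = iK e ∧ gp φ e ≠ 0) {k0 : ℕ}
    (huniq : ∀ k : ℕ, y'.Pi (lam - k • a) → k = k0) : ¬ ValV y.q D 0 := by
  classical
  have ha : a ≠ 0 := Pi_ne H hφ.ya
  obtain ⟨E, rfl, hE⟩ := hD.exists_hder hDv
  obtain ⟨t, ht, hw, htn⟩ := hlam
  obtain ⟨c2, hc2, hs2, hv2⟩ := exists_lift_cls H hφ ht hw
  obtain ⟨hc1, hs1⟩ := gp_field (𝒜 := 𝒜) hφ hE
  set c1 : R →ₗ[ℂ] ℂ := (gp φ).toLinearMap.comp (E : R →ₗ[ℂ] R) with hc1d
  have hc1ne : c1 ≠ 0 := by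
    obtain ⟨h, e, he, hne⟩ := hne
    intro h0
    apply hne
    rw [toVF_iK] at he
    have h1 : E h = e := IsFractionRing.injective R (FractionRing R) he
    rw [← h1]
    exact LinearMap.congr_fun h0 h
  -- a homogeneous element with `t h ≠ 0`
  obtain ⟨dt, ht1, hht, htne⟩ : ∃ d, ∃ h ∈ 𝒜 (d, d • y.ν + lam), t h ≠ 0 := by
    obtain ⟨d, m, h, hh, hne'⟩ := htn 0
    rw [zero_mul, zero_mul] at hne'
    have h1 := hw d m h hh hne'
    subst h1
    exact ⟨d, h, hh, hne'⟩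
  have hc2ne : c2 ≠ 0 := by
    intro h0
    apply htne
    rw [← hv2 dt ht1 hht, h0, LinearMap.zero_apply]
  obtain ⟨k1, -, hPi1, hmin1, d1, g1, hg1, hne1⟩ := lead_pi ha hφ hl hc1 hs1 hc1ne
  obtain ⟨k2, -, hPi2, hmin2, d2, g2, hg2, hne2⟩ := lead_pi ha hφ hl hc2 (k0 := 0)
    (fun d m h hh h1 => by
      obtain ⟨j, hj⟩ := hs2 d m h hh h1
      exact ⟨j, Nat.zero_le _, hj⟩) hc2ne
  have hk1 := huniq k1 hPi1
  have hk2 := huniq k2 hPi2
  have hk12 : k2 = k1 := by omega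
  subst hk12
  obtain ⟨t1, ht1t, ht1w, ht1v⟩ := lead ha hφ hc1 hmin1
  obtain ⟨t2, ht2t, ht2w, ht2v⟩ := lead ha hφ hc2 hmin2
  obtain ⟨b1, b2, hb, hlin⟩ := H.mult y'.q y'.ν _ y'.nv y'.fix hPi1 t1 t2 ht1t ht1w ht2t ht2w
  have hb1 : b1 ≠ 0 := by
    intro h0
    rcases hb with h1 | h1
    · exact h1 h0
    · have h2 := hlin g2
      rw [h0, zero_mul, zero_add, ht2v d2 g2 hg2] at h2
      exact (mul_ne_zero h1 hne2) h2
  have hb2 : b2 ≠ 0 := by
    intro h0
    have h2 := hlin g1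
    rw [h0, zero_mul, add_zero, ht1v d1 g1 hg1] at h2
    exact (mul_ne_zero hb1 hne1) h2
  -- the difference
  have hzero : b1 • c1 + b2 • c2 = 0 := by
    by_contra hne3
    have hc3 : ∀ f g, (b1 • c1 + b2 • c2) (f * g) =
        gp φ f * (b1 • c1 + b2 • c2) g + gp φ g * (b1 • c1 + b2 • c2) f := by
      intro f g
      simp only [LinearMap.add_apply, LinearMap.smul_apply, smul_eq_mul]
      rw [hc1, hc2]
      ring
    obtain ⟨k, hk, hPi, -, -⟩ := lead_pi ha hφ hl hc3 (k0 := k2 + 1) (by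
      intro d m h hh h1
      simp only [LinearMap.add_apply, LinearMap.smul_apply, smul_eq_mul] at h1
      have hex : ∃ j : ℕ, k2 ≤ j ∧ m = d • y'.ν + lam - j • a := by
        by_cases h2 : c1 h = 0
        · have h3 : c2 h ≠ 0 := by
            intro h3
            rw [h2, h3, mul_zero, mul_zero, add_zero] at h1
            exact h1 rfl
          exact hmin2 d m h hh h3
        · exact hmin1 d m h hh h2
      obtain ⟨j, hj, hm⟩ := hex
      refine ⟨j, ?_, hm⟩
      by_contra hlt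
      have hjk : j = k2 := by omega
      subst hjk
      subst hm
      rw [← ht1v d h hh, ← ht2v d h hh] at h1
      exact h1 (hlin h)) hne3
    have := huniq k hPi
    omega
  -- the value at `y`
  intro hval
  have h1 : ValV y.q (toVF E) (y.q.toLinearMap.comp (E : R →ₗ[ℂ] R)) := by
    intro h
    rw [toVF_iK]
    exact Val.iK (E h)
  have h2 : y.q (E ht1) = 0 := LinearMap.congr_fun (h1.unique hval) ht1
  have h3 : E ht1 ∈ 𝒜 (dt, dt • y.ν) := by
    have := hE _ _ ht1 hht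
    rwa [add_sub_cancel_right] at this
  have h4 : c1 ht1 = 0 := by
    change gp φ (E ht1) = 0
    rw [q_eq hφ ha h3, h2]
  have h5 := LinearMap.congr_fun hzero ht1
  simp only [LinearMap.add_apply, LinearMap.smul_apply, smul_eq_mul, LinearMap.zero_apply] at h5
  rw [h4, mul_zero, zero_add, hv2 dt ht1 hht] at h5
  exact (mul_ne_zero hb2 htne) h5

end Vale.Agent.P280.H72
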